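import Vale.Agent.P168.Truncate.TrialFac

/-!
P168: the trial functional under a change of the clauses and fields.
-/

open MeasureTheory ProbabilityTheory Filter Topology Real
open scoped NNReal

noncomputable section

namespace Vale.Agent.P168

variable {K r k : ℕ}

instance isProbabilityMeasure_u01 : IsProbabilityMeasure u01 :=
  ⟨by simp [u01]⟩

instance isProbabilityMeasure_lvl (k K : ℕ) : IsProbabilityMeasure (lvl k K) := by
  unfold lvl
  infer_instance

section
variable {X : Type} [MeasurableSpace X] {ν : Measure X} [IsProbabilityMeasure ν] {r : ℕ}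
  {m : Fin r → ℝ}

/-- The logarithm of the recursion over all but the first level, averaged over the first. -/
def outerRec (ν : Measure X) (m : Fin r → ℝ) (Y : (Fin (r + 1) → X) → ℝ) : ℝ :=
  ∫ w₀, Real.log (rpowRec ν r m fun w => Y (Fin.cons w₀ w)) ∂ν

theorem measurable_outerRec {Z : Type} [MeasurableSpace Z] {Y : Z → (Fin (r + 1) → X) → ℝ}
    (hY : Measurable (Function.uncurry Y)) : Measurable fun z => outerRec ν m (Y z) := by
  have h : Measurable fun q : (Z × X) × (Fin r → X) => Y q.1.1 (Fin.cons q.1.2 q.2) :=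
    hY.comp ((measurable_fst.comp measurable_fst).prodMk
      (measurable_finCons.comp ((measurable_snd.comp measurable_fst).prodMk measurable_snd)))
  exact (StronglyMeasurable.integral_prod_right' (ν := ν)
    (measurable_log.comp (measurable_rpowRec r m (Y := fun (q : Z × X) w =>
      Y q.1 (Fin.cons q.2 w)) h)).stronglyMeasurable).measurable

theorem outerRec_compare (hm : ∀ p, 0 < m p) {Y Y' : (Fin (r + 1) → X) → ℝ} (hY : Measurable Y)
    (hY' : Measurable Y') (h0 : ∀ w, 0 < Y w) (h0' : ∀ w, 0 < Y' w) {a B d : ℝ}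
    (hB : ∀ w, |log (Y w) - a| ≤ B) (hd : ∀ w, |log (Y w) - log (Y' w)| ≤ d) :
    |outerRec ν m Y - outerRec ν m Y'| ≤ d ∧ |outerRec ν m Y| ≤ |a| + B := by
  have hB' : ∀ w, |log (Y w)| ≤ |a| + B := fun w => by
    linarith [hB w, abs_sub_abs_le_abs_sub (log (Y w)) a]
  have sl : ∀ {Y : (Fin (r + 1) → X) → ℝ}, Measurable Y → ∀ w₀,
      Measurable fun w : Fin r → X => Y (Fin.cons w₀ w) :=
    fun hY w₀ => hY.comp (measurable_finCons_right w₀)
  have p1 : ∀ w₀, |log (rpowRec ν r m fun w => Y (Fin.cons w₀ w)) -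
      log (rpowRec ν r m fun w => Y' (Fin.cons w₀ w))| ≤ d := fun w₀ =>
    abs_log_rpowRec_sub hm (sl hY w₀) (sl hY' w₀) (fun _ => h0 _) (fun _ => h0' _)
      (fun _ => hB' _) fun _ => hd _
  have p2 : ∀ w₀, |log (rpowRec ν r m fun w => Y (Fin.cons w₀ w))| ≤ |a| + B := fun w₀ => by
    have h1 : rpowRec ν r m (fun _ => (1 : ℝ)) = 1 :=
      le_antisymm (rpowRec_mem r m hm measurable_const one_pos fun _ => ⟨le_rfl, le_rfl⟩).2
        (rpowRec_mem r m hm measurable_const one_pos fun _ => ⟨le_rfl, le_rfl⟩).1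
    simpa [h1] using abs_log_rpowRec_sub (ν := ν) (Y' := fun _ => (1 : ℝ)) hm (sl hY w₀)
      measurable_const (fun _ => h0 _) (fun _ => one_pos) (fun _ => hB' _)
      (d := |a| + B) fun _ => by simpa using hB' _
  have ml : ∀ {Y : (Fin (r + 1) → X) → ℝ}, Measurable Y →
      Measurable fun w₀ => log (rpowRec ν r m fun w => Y (Fin.cons w₀ w)) := fun {Y} hY =>
    measurable_log.comp (measurable_rpowRec r m (Y := fun w₀ w => Y (Fin.cons w₀ w))
      (hY.comp measurable_finCons))
  have i1 : Integrable (fun w₀ => log (rpowRec ν r m fun w => Y (Fin.cons w₀ w))) ν :=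
    Integrable.of_bound (ml hY).aestronglyMeasurable _ (ae_of_all _ p2)
  have i2 : Integrable (fun w₀ => log (rpowRec ν r m fun w => Y (Fin.cons w₀ w)) -
      log (rpowRec ν r m fun w => Y' (Fin.cons w₀ w))) ν :=
    Integrable.of_bound ((ml hY).sub (ml hY')).aestronglyMeasurable _ (ae_of_all _ p1)
  refine ⟨?_, ?_⟩
  · unfold outerRec
    rw [← integral_sub i1 ((i1.sub i2).congr (ae_of_all _ fun _ => by simp))]
    exact (abs_integral_le_integral_abs.trans (integral_mono_of_nonneg
      (ae_of_all _ fun _ => abs_nonneg _) (integrable_const d) (ae_of_all _ p1))).trans_eq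
      (by simp)
  · exact (abs_integral_le_integral_abs.trans (integral_mono_of_nonneg
      (ae_of_all _ fun _ => abs_nonneg _) (integrable_const (|a| + B)) (ae_of_all _ p2))).trans_eq
      (by simp)

end

/-- The mean of `log U₀` over the field and the first level at given clauses. -/
def meanU (ν : Measure ℝ) (m : Fin r → ℝ) (x : (Fin (r + 1) → ℝ) → ℝ)
    (c : Fin k → Clause K × Fin K) : ℝ :=
  ∫ h, outerRec (lvl k K) m (Uval c h x) ∂ν

/-- The mean of `log V₀` over the first level at given clauses. -/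
def meanV (m : Fin r → ℝ) (x : (Fin (r + 1) → ℝ) → ℝ) (c : Fin k → Clause K) : ℝ :=
  outerRec (lvl k K) m (Vval c x)

variable {lam : ℝ} {μ : Measure (Clause K)} {ν : Measure ℝ} [IsProbabilityMeasure μ]
  [IsProbabilityMeasure ν] (p : Param r)

omit [IsProbabilityMeasure μ] [IsProbabilityMeasure ν] in
theorem TU_eq : TU lam μ ν p.m p.x = ∫ k, ∫ c : Fin k → Clause K × Fin K, meanU ν p.m p.x c
    ∂(Measure.pi fun _ => μ.prod (unif (Fin K))) ∂poissonMeasure ((K : ℝ) * lam).toNNReal := rfl

omit [IsProbabilityMeasure μ] [IsProbabilityMeasure ν] in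
theorem TV_eq : TV lam μ p.m p.x = ∫ k, ∫ c : Fin k → Clause K, meanV p.m p.x c
    ∂(Measure.pi fun _ => μ) ∂poissonMeasure (((K : ℝ) - 1) * lam).toNNReal := rfl

attribute [local irreducible] outerRec Uval Vval

omit [IsProbabilityMeasure μ] in
theorem measurable_outerU : Measurable fun q : (Fin k → Clause K × Fin K) × ℝ =>
    outerRec (lvl k K) p.m (Uval q.1 q.2 p.x) :=
  measurable_outerRec (Y := fun (q : (Fin k → Clause K × Fin K) × ℝ) ω => Uval q.1 q.2 p.x ω)
    (measurable_Uval p.meas)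

omit [IsProbabilityMeasure μ] in
theorem meanU_compare (hh : Integrable (fun x : ℝ => x) ν) {ψ : ℝ → ℝ} (hψ : Measurable ψ)
    (he : Integrable (fun x => |x - ψ x|) ν) (c c' : Fin k → Clause K × Fin K)
    (hs : ∀ j, (c j).2 = (c' j).2) :
    |meanU ν p.m p.x c - meanU (ν.map ψ) p.m p.x c'| ≤
      (∫ x, |x - ψ x| ∂ν) + ∑ j, ‖(c j).1 - (c' j).1‖ ∧
    |meanU ν p.m p.x c| ≤ (Real.log 2 + ∫ x, |x| ∂ν) + ∑ j, ‖(c j).1‖ := by
  have mc : ∀ (c : Fin k → Clause K × Fin K) h, Measurable (Uval c h p.x) := fun c h =>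
    (measurable_Uval (K := K) (k := k) p.meas).comp
      (measurable_prodMk_left (x := (c, h)))
  have hc := fun h h' => outerRec_compare (ν := lvl k K) (a := Real.log 2) p.pos (mc c h) (mc c' h')
    (fun ω => (Uval_compare p.range c c' hs h h' ω).1)
    (fun ω => (Uval_compare p.range c' c' (fun _ => rfl) h' h' ω).1)
    (fun ω => abs_log_Uval p.range c h ω) fun ω => (Uval_compare p.range c c' hs h h' ω).2
  have hmo : ∀ c : Fin k → Clause K × Fin K,
      Measurable fun h => outerRec (lvl k K) p.m (Uval c h p.x) := fun c =>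
    (measurable_outerU p).comp (measurable_prodMk_left (x := c))
  have hb : ∀ h, |outerRec (lvl k K) p.m (Uval c h p.x)| ≤
      (Real.log 2 + ∑ j, ‖(c j).1‖) + |h| := fun h => (hc h h).2.trans_eq (by
    rw [abs_of_pos (Real.log_pos one_lt_two)]; ring)
  have hi : Integrable (fun h : ℝ => (Real.log 2 + ∑ j, ‖(c j).1‖) + |h|) ν :=
    (integrable_const _).add hh.abs
  have hj : Integrable (fun h => (∑ j, ‖(c j).1 - (c' j).1‖) + |h - ψ h|) ν :=
    (integrable_const _).add he
  have hd : ∀ h, |outerRec (lvl k K) p.m (Uval c h p.x) -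
      outerRec (lvl k K) p.m (Uval c' (ψ h) p.x)| ≤ (∑ j, ‖(c j).1 - (c' j).1‖) + |h - ψ h| :=
    fun h => (hc h (ψ h)).1.trans_eq (add_comm _ _)
  have i1 : Integrable (fun h => outerRec (lvl k K) p.m (Uval c h p.x)) ν :=
    hi.mono' (hmo c).aestronglyMeasurable (ae_of_all _ hb)
  have i2 : Integrable (fun h => outerRec (lvl k K) p.m (Uval c' (ψ h) p.x)) ν :=
    (i1.sub (hj.mono' ((hmo c).sub ((hmo c').comp hψ)).aestronglyMeasurable
      (ae_of_all _ hd))).congr (ae_of_all _ fun _ => by simp)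
  refine ⟨?_, ?_⟩
  · unfold meanU
    rw [integral_map hψ.aemeasurable (hmo c').aestronglyMeasurable, ← integral_sub i1 i2]
    refine (abs_integral_le_integral_abs.trans (integral_mono_of_nonneg
      (ae_of_all _ fun _ => abs_nonneg _) hj (ae_of_all _ hd))).trans_eq ?_
    rw [integral_add (integrable_const _) he, integral_const, probReal_univ, one_smul, add_comm]
  · refine (abs_integral_le_integral_abs.trans (integral_mono_of_nonneg
      (ae_of_all _ fun _ => abs_nonneg _) hi (ae_of_all _ hb))).trans_eq ?_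
    rw [integral_add (integrable_const _) hh.abs, integral_const, probReal_univ, one_smul]
    ring

omit [IsProbabilityMeasure μ] in
theorem meanV_compare (c c' : Fin k → Clause K) :
    |meanV p.m p.x c - meanV p.m p.x c'| ≤ 0 + ∑ j, ‖c j - c' j‖ ∧
      |meanV p.m p.x c| ≤ 0 + ∑ j, ‖c j‖ := by
  have mc : ∀ c : Fin k → Clause K, Measurable (Vval c p.x) := fun c =>
    (measurable_Vval (K := K) (k := k) p.meas).comp (measurable_prodMk_left (x := c))
  have := outerRec_compare (ν := lvl k K) (a := 0) p.pos (mc c) (mc c')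
    (fun ω => (Vval_compare p.range c c' ω).1) (fun ω => (Vval_compare p.range c' c' ω).1)
    (fun ω => by simpa using abs_log_Vval p.range c ω)
    fun ω => (Vval_compare p.range c c' ω).2
  simpa [meanV] using this

/-- The trial functional moves by at most the mean changes of the clause and the field. -/
theorem trial_compare (hK : 1 ≤ K) (hlam : 0 ≤ lam)
    (hθ : Integrable (fun θ : Clause K => ‖θ‖) μ)
    (hh : Integrable (fun x : ℝ => x) ν) {Φ : Clause K → Clause K} (hΦ : Measurable Φ)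
    {ψ : ℝ → ℝ} (hψ : Measurable ψ) (hd : Integrable (fun θ => ‖θ - Φ θ‖) μ)
    (he : Integrable (fun x => |x - ψ x|) ν) :
    |(TU lam μ ν p.m p.x - TV lam μ p.m p.x) -
        (TU lam (μ.map Φ) (ν.map ψ) p.m p.x - TV lam (μ.map Φ) p.m p.x)| ≤
      (2 * K - 1) * lam * (∫ θ, ‖θ - Φ θ‖ ∂μ) + ∫ x, |x - ψ x| ∂ν := by
  have : Nonempty (Fin K) := ⟨⟨0, hK⟩⟩
  have := isProbabilityMeasure_unif (Fin K)
  have : IsProbabilityMeasure (ν.map ψ) := Measure.isProbabilityMeasure_map hψ.aemeasurable
  have mU : ∀ (ν : Measure ℝ) [IsProbabilityMeasure ν] (k : ℕ),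
      Measurable (meanU ν p.m p.x : (Fin k → Clause K × Fin K) → ℝ) := fun ν _ k =>
    (StronglyMeasurable.integral_prod_right' (ν := ν)
      (measurable_outerU p).stronglyMeasurable).measurable
  have mV : ∀ k : ℕ, Measurable (meanV p.m p.x : (Fin k → Clause K) → ℝ) := fun k =>
    measurable_outerRec (Y := fun (c : Fin k → Clause K) ω => Vval c p.x ω)
      (measurable_Vval p.meas)
  have hU := (abs_poisson_sub_map ((K : ℝ) * lam).toNNReal (μ := μ.prod (unif (Fin K)))
    (Φ := Prod.map Φ id) (hΦ.prodMap measurable_id) (fun _ => meanU ν p.m p.x)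
    (fun _ => meanU (ν.map ψ) p.m p.x) (mU ν) (mU _) (hθ.comp_fst _) (hd.comp_fst _)
    (fun _ c => (meanU_compare p hh hψ he c c fun _ => rfl).2)
    (fun _ c => (meanU_compare p hh hψ he c (Prod.map Φ id ∘ c) fun _ => rfl).1)).1
  have hV := (abs_poisson_sub_map (((K : ℝ) - 1) * lam).toNNReal (μ := μ) (Φ := Φ) hΦ
    (fun _ => meanV p.m p.x) (fun _ => meanV p.m p.x) mV mV hθ hd
    (fun _ c => (meanV_compare p c c).2) (fun _ c => (meanV_compare p c (Φ ∘ c)).1)).1
  rw [← Measure.map_prod_map μ (unif (Fin K)) hΦ measurable_id, Measure.map_id,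
    integral_fun_fst (μ := μ) (ν := unif (Fin K)) (fun θ => ‖θ - Φ θ‖), probReal_univ, one_smul,
    Real.coe_toNNReal _ (by positivity)] at hU
  have hK1 : (1 : ℝ) ≤ K := by exact_mod_cast hK
  rw [zero_add, Real.coe_toNNReal _ (mul_nonneg (by linarith) hlam)] at hV
  rw [TU_eq, TU_eq, TV_eq, TV_eq, sub_sub_sub_comm]
  refine ((abs_sub _ _).trans (add_le_add hU hV)).trans_eq ?_
  ring

end Vale.Agent.P168
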