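import Vale.Agent.P168.Defs

/-!
P168: sums of exponentials and Poisson sums of functions of independent variables, compared under
a change of the variables.
-/

open MeasureTheory ProbabilityTheory Filter Topology Real
open scoped NNReal

noncomputable section

namespace Vale.Agent.P168

theorem abs_log_sum_exp_sub {ι : Type*} [Fintype ι] {w a b : ι → ℝ} {d : ℝ} (hw : ∀ i, 0 ≤ w i)
    (hw0 : 0 < ∑ i, w i) (h : ∀ i, |a i - b i| ≤ d) :
    |log (∑ i, w i * exp (a i)) - log (∑ i, w i * exp (b i))| ≤ d := by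
  obtain ⟨i0, -, hi0⟩ := Finset.exists_ne_zero_of_sum_ne_zero hw0.ne'
  have pos : ∀ a : ι → ℝ, 0 < ∑ i, w i * exp (a i) := fun a =>
    Finset.sum_pos' (fun i _ => mul_nonneg (hw i) (exp_pos _).le)
      ⟨i0, Finset.mem_univ _, mul_pos (lt_of_le_of_ne (hw i0) (Ne.symm hi0)) (exp_pos _)⟩
  have key : ∀ a b : ι → ℝ, (∀ i, a i ≤ b i + d) →
      log (∑ i, w i * exp (a i)) - log (∑ i, w i * exp (b i)) ≤ d := by
    intro a b hab
    have : (∑ i, w i * exp (a i)) ≤ exp d * ∑ i, w i * exp (b i) := by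
      rw [Finset.mul_sum]
      refine Finset.sum_le_sum fun i _ => ?_
      rw [mul_left_comm, ← exp_add]
      exact mul_le_mul_of_nonneg_left (exp_le_exp.2 (by linarith [hab i])) (hw i)
    have h1 := log_le_log (pos a) this
    rw [log_mul (exp_pos d).ne' (pos b).ne', log_exp] at h1
    linarith
  exact abs_sub_le_iff.2 ⟨key a b fun i => by linarith [(abs_le.1 (h i)).2],
    key b a fun i => by linarith [(abs_le.1 (h i)).1]⟩

theorem integrable_natCast_poisson (c : ℝ≥0) :
    Integrable (fun n : ℕ => (n : ℝ)) (poissonMeasure c) ∧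
      ∫ n : ℕ, (n : ℝ) ∂poissonMeasure c = c := by
  have h : HasSum (fun n : ℕ => exp (-(c : ℝ)) * (c : ℝ) ^ n / (n.factorial : ℝ) * (n : ℝ))
      (c : ℝ) := by
    refine (hasSum_nat_add_iff' 1).1 ?_
    have h1 := (hasSum_one_poissonMeasure c).mul_left (c : ℝ)
    rw [mul_one] at h1
    simp only [Finset.sum_range_one, CharP.cast_eq_zero, mul_zero, sub_zero]
    refine h1.congr_fun fun n => ?_
    rw [Nat.factorial_succ]
    push_cast
    field_simp
    ring
  have hi : Integrable (fun n : ℕ => (n : ℝ)) (poissonMeasure c) := by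
    rw [integrable_poissonMeasure_iff]
    simpa using h.summable
  exact ⟨hi, by rw [integral_poissonMeasure]; simpa using h.tsum_eq⟩

section
variable {T S : Type*} [MeasurableSpace T] [MeasurableSpace S] {μ : Measure T}
  [IsProbabilityMeasure μ]

theorem integral_pi_sum {k : ℕ} {D : T → ℝ} (hD : Integrable D μ) :
    Integrable (fun v : Fin k → T => ∑ j, D (v j)) (Measure.pi fun _ => μ) ∧
      ∫ v : Fin k → T, ∑ j, D (v j) ∂(Measure.pi fun _ => μ) = k * ∫ x, D x ∂μ := by
  have hi : ∀ j : Fin k, Integrable (fun v : Fin k → T => D (v j)) (Measure.pi fun _ => μ) :=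
    fun j => (measurePreserving_eval (fun _ : Fin k => μ) j).integrable_comp_of_integrable hD
  refine ⟨integrable_finsetSum _ fun j _ => hi j, ?_⟩
  rw [integral_finsetSum _ fun j _ => hi j]
  simp [integral_comp_eval (μ := fun _ : Fin k => μ) hD.aestronglyMeasurable]

/-- Poisson sums of functions of independent variables that differ by at most a sum. -/
theorem abs_poisson_sub_map (c : ℝ≥0) {Φ : T → S} (hΦ : Measurable Φ)
    (g : ∀ k, (Fin k → T) → ℝ) (g' : ∀ k, (Fin k → S) → ℝ) (hg : ∀ k, Measurable (g k))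
    (hg' : ∀ k, Measurable (g' k)) {A e : ℝ} {D d : T → ℝ} (hD : Integrable D μ)
    (hd : Integrable d μ) (hb : ∀ k v, |g k v| ≤ A + ∑ j, D (v j))
    (he : ∀ k v, |g k v - g' k (Φ ∘ v)| ≤ e + ∑ j, d (v j)) :
    |(∫ k, ∫ v : Fin k → T, g k v ∂(Measure.pi fun _ => μ) ∂poissonMeasure c) -
        ∫ k, ∫ v : Fin k → S, g' k v ∂(Measure.pi fun _ => μ.map Φ) ∂poissonMeasure c|
      ≤ e + c * ∫ x, d x ∂μ ∧
    |∫ k, ∫ v : Fin k → T, g k v ∂(Measure.pi fun _ => μ) ∂poissonMeasure c|
      ≤ A + c * ∫ x, D x ∂μ := by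
  have : IsProbabilityMeasure (μ.map Φ) := Measure.isProbabilityMeasure_map hΦ.aemeasurable
  have bound : ∀ (k : ℕ) {F : (Fin k → T) → ℝ} {a : ℝ} {B : T → ℝ}, Integrable B μ →
      Measurable F → (∀ v, |F v| ≤ a + ∑ j, B (v j)) → Integrable F (Measure.pi fun _ => μ) ∧
        |∫ v, F v ∂(Measure.pi fun _ => μ)| ≤ a + k * ∫ x, B x ∂μ := by
    intro k F a B hB hF h
    have hs := integral_pi_sum (k := k) hB
    have hi : Integrable (fun v : Fin k → T => a + ∑ j, B (v j)) (Measure.pi fun _ => μ) :=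
      (integrable_const a).add hs.1
    refine ⟨hi.mono' hF.aestronglyMeasurable (ae_of_all _ h),
      (abs_integral_le_integral_abs.trans (integral_mono_of_nonneg
        (ae_of_all _ fun _ => abs_nonneg _) hi (ae_of_all _ h))).trans_eq ?_⟩
    rw [integral_add (integrable_const a) hs.1, hs.2]
    simp
  have outer : ∀ {F : ℕ → ℝ} {a b : ℝ}, (∀ k, |F k| ≤ a + k * b) →
      Integrable F (poissonMeasure c) ∧ |∫ k, F k ∂poissonMeasure c| ≤ a + c * b := by
    intro F a b h
    obtain ⟨hn, hn'⟩ := integrable_natCast_poisson c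
    have hi : Integrable (fun k : ℕ => a + (k : ℝ) * b) (poissonMeasure c) :=
      (integrable_const a).add (hn.mul_const b)
    refine ⟨hi.mono' (measurable_of_countable F).aestronglyMeasurable (ae_of_all _ h),
      (abs_integral_le_integral_abs.trans (integral_mono_of_nonneg
        (ae_of_all _ fun _ => abs_nonneg _) hi (ae_of_all _ h))).trans_eq ?_⟩
    rw [integral_add (integrable_const a) (hn.mul_const b), integral_mul_const, hn']
    simp
  have hmap : ∀ k, ∫ v : Fin k → S, g' k v ∂(Measure.pi fun _ => μ.map Φ) =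
      ∫ v : Fin k → T, g' k (Φ ∘ v) ∂(Measure.pi fun _ => μ) := fun k => by
    rw [← Measure.pi_map_pi (fun _ => hΦ.aemeasurable), integral_map
      (φ := fun (v : Fin k → T) i => Φ (v i))
      (measurable_pi_lambda _ fun j => hΦ.comp (measurable_pi_apply j)).aemeasurable
      (hg' k).aestronglyMeasurable]
    rfl
  have h1 := fun k => bound k hD (hg k) (hb k)
  have hc : ∀ k, Measurable fun v : Fin k → T => g' k (Φ ∘ v) := fun k =>
    (hg' k).comp (measurable_pi_lambda _ fun j => hΦ.comp (measurable_pi_apply j))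
  have h2 := fun k => bound k hd ((hg k).sub (hc k)) (he k)
  obtain ⟨o1, o2⟩ := outer fun k => (h1 k).2
  refine ⟨?_, o2⟩
  simp only [hmap]
  have h3 : ∀ k, Integrable (fun v : Fin k → T => g' k (Φ ∘ v)) (Measure.pi fun _ => μ) :=
    fun k => ((h1 k).1.sub (h2 k).1).congr (ae_of_all _ fun v => by simp)
  have hsub : ∀ k, |(∫ v : Fin k → T, g k v ∂(Measure.pi fun _ => μ)) -
      ∫ v : Fin k → T, g' k (Φ ∘ v) ∂(Measure.pi fun _ => μ)| ≤ e + k * ∫ x, d x ∂μ := fun k => by
    rw [← integral_sub (h1 k).1 (h3 k)]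
    exact (h2 k).2
  obtain ⟨o3, o4⟩ := outer hsub
  have h4 : Integrable (fun k => ∫ v : Fin k → T, g' k (Φ ∘ v) ∂(Measure.pi fun _ => μ))
      (poissonMeasure c) := (o1.sub o3).congr (ae_of_all _ fun k => by simp)
  rw [← integral_sub o1 h4]
  exact o4

end

end Vale.Agent.P168
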