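import Vale.Agent.P168.Model
import Vale.Agent.P168.Truncate.Trial

/-!
P168: the formula from the upper bound and the lower bound for bounded models, by truncation.
-/

open MeasureTheory ProbabilityTheory Filter Topology Real
open scoped NNReal

noncomputable section

namespace Vale.Agent.P168

/-- Truncation of a number at level `L`. -/
def clip (L x : ℝ) : ℝ := max (-L) (min L x)

theorem abs_clip_le {L : ℝ} (hL : 0 ≤ L) (x : ℝ) : |clip L x| ≤ L :=
  abs_le.2 ⟨le_max_left _ _, max_le (by linarith) (min_le_left _ _)⟩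

theorem abs_sub_clip_le {L : ℝ} (hL : 0 ≤ L) (x : ℝ) : |x - clip L x| ≤ |x| := by
  unfold clip
  rcases le_total x (-L) with h | h
  · rw [min_eq_right (by linarith), max_eq_left h, abs_of_nonpos (by linarith : x ≤ 0)]
    exact abs_le.2 ⟨by linarith, by linarith⟩
  rcases le_total L x with h' | h'
  · rw [min_eq_left h', max_eq_right (by linarith), abs_of_nonneg (by linarith : 0 ≤ x)]
    exact abs_le.2 ⟨by linarith, by linarith⟩
  · rw [min_eq_right h', max_eq_right h, sub_self, abs_zero]
    exact abs_nonneg _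

theorem clip_eq {L x : ℝ} (h : |x| ≤ L) : clip L x = x := by
  obtain ⟨h1, h2⟩ := abs_le.1 h
  rw [clip, min_eq_right h2, max_eq_right h1]

theorem measurable_clip (L : ℝ) : Measurable (clip L) := by
  unfold clip
  fun_prop

theorem tendsto_clip {α : Type*} [MeasurableSpace α] {m : Measure α} [IsFiniteMeasure m]
    {g : α → ℝ} (hg : Integrable g m) :
    Tendsto (fun L : ℕ => ∫ a, |g a - clip L (g a)| ∂m) atTop (𝓝 0) := by
  have h := tendsto_integral_of_dominated_convergence (fun a => |g a|)
    (F := fun (L : ℕ) a => |g a - clip L (g a)|) (f := fun _ => (0 : ℝ))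
    (fun L => (hg.aestronglyMeasurable.aemeasurable.sub
      ((measurable_clip _).comp_aemeasurable hg.aestronglyMeasurable.aemeasurable)).abs.aestronglyMeasurable)
    hg.abs (fun L => ae_of_all _ fun a => by
      rw [Real.norm_eq_abs, abs_abs]
      exact abs_sub_clip_le (Nat.cast_nonneg _) _)
    (ae_of_all _ fun a => by
      refine tendsto_const_nhds.congr' ?_
      filter_upwards [eventually_ge_atTop ⌈|g a|⌉₊] with L hL
      rw [clip_eq ((Nat.le_ceil _).trans (by exact_mod_cast hL)), sub_self, abs_zero])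
  simpa using h

variable {K : ℕ}

/-- Truncation of a clause at level `L`. -/
def clipC (L : ℝ) (θ : Clause K) : Clause K := fun σ => clip L (θ σ)

theorem measurable_clipC (L : ℝ) : Measurable (clipC (K := K) L) :=
  measurable_pi_lambda _ fun σ => (measurable_clip L).comp (measurable_pi_apply σ)

theorem norm_le_sum (θ : Clause K) : ‖θ‖ ≤ ∑ σ, |θ σ| :=
  (pi_norm_le_iff_of_nonneg (Finset.sum_nonneg fun _ _ => abs_nonneg _)).2 fun σ =>
    Finset.single_le_sum (f := fun σ => |θ σ|) (fun _ _ => abs_nonneg _) (Finset.mem_univ σ)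

/-- There is a trial value at depth zero. -/
def Param.zero : Param 0 where
  m := Fin.elim0
  x := fun _ => 0
  mono := fun i => i.elim0
  pos := fun i => i.elim0
  lt_one := fun i => i.elim0
  meas := measurable_const
  range := fun _ => ⟨by norm_num, by norm_num⟩

theorem mezardParisi_of (hup : UpperBound) (hlow : LowerBdd) : MezardParisi := by
  intro K hK hKe lam hlam Ω _ P _ a b f ν _ hc
  set μ := clauseLaw P a b f with hμ
  have hmeas : Measurable fun ω => thetaOf (a ω) (b ω) fun j => f j ω := by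
    refine measurable_pi_lambda _ fun σ => measurable_log.comp (hc.meas_a.mul ((hc.meas_b.mul
      (Finset.measurable_prod _ fun j _ => ?_)).const_add 1))
    exact (measurable_pi_apply (σ j)).comp (hc.meas_f j)
  have : IsProbabilityMeasure μ := Measure.isProbabilityMeasure_map hmeas.aemeasurable
  have hσ : ∀ σ, Integrable (fun θ : Clause K => θ σ) μ := fun σ =>
    (integrable_map_measure (measurable_pi_apply σ).aestronglyMeasurable hmeas.aemeasurable).2
      (hc.theta_int σ)
  have hθ : Integrable (fun θ : Clause K => ‖θ‖) μ :=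
    (integrable_finsetSum _ fun σ _ => (hσ σ).abs).mono' measurable_norm.aestronglyMeasurable
      (ae_of_all _ fun θ => by rw [Real.norm_of_nonneg (norm_nonneg _)]; exact norm_le_sum θ)
  have hd : ∀ L : ℕ, Integrable (fun θ : Clause K => ‖θ - clipC L θ‖) μ := fun L =>
    hθ.mono' ((measurable_id.sub (measurable_clipC _)).norm).aestronglyMeasurable
      (ae_of_all _ fun θ => by
        rw [Real.norm_of_nonneg (norm_nonneg _)]
        refine (pi_norm_le_iff_of_nonneg (norm_nonneg _)).2 fun σ => ?_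
        exact (abs_sub_clip_le (Nat.cast_nonneg L) _).trans (norm_le_pi_norm θ σ))
  have he : ∀ L : ℕ, Integrable (fun x : ℝ => |x - clip L x|) ν := fun L =>
    hc.field_int.abs.mono' (measurable_id.sub (measurable_clip _)).abs.aestronglyMeasurable
      (ae_of_all _ fun x => by
        rw [Real.norm_eq_abs, abs_abs]; exact abs_sub_clip_le (Nat.cast_nonneg _) x)
  have hlim : Tendsto (fun L : ℕ => (2 * K : ℝ) * lam * (∫ θ, ‖θ - clipC L θ‖ ∂μ) +
      ∫ x, |x - clip L x| ∂ν) atTop (𝓝 0) := by
    have h1 : Tendsto (fun L : ℕ => ∫ θ, ‖θ - clipC L θ‖ ∂μ) atTop (𝓝 0) := by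
      refine squeeze_zero (fun L => integral_nonneg fun θ => norm_nonneg _)
        (fun L => (integral_mono (hd L) (integrable_finsetSum _ fun σ _ =>
          ((hσ σ).abs.mono' ?_ ?_)) fun θ => norm_le_sum (θ - clipC L θ)).trans_eq
          (integral_finsetSum _ fun σ _ => (hσ σ).abs.mono' ?_ ?_))
        (by simpa [clipC] using tendsto_finsetSum _ fun σ _ => tendsto_clip (hσ σ))
      all_goals first
        | exact ((measurable_pi_apply σ).sub ((measurable_pi_apply σ).comp
            (measurable_clipC _))).abs.aestronglyMeasurable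
        | refine ae_of_all _ fun θ => ?_
          rw [Real.norm_eq_abs, abs_abs]
          exact abs_sub_clip_le (Nat.cast_nonneg _) _
    simpa using (h1.const_mul ((2 * K : ℝ) * lam)).add (tendsto_clip hc.field_int)
  have hne : (trialValues lam μ ν).Nonempty := ⟨_, 0, Param.zero, rfl⟩
  have hbdd : BddBelow (trialValues lam μ ν) := by
    refine ⟨-(Real.log 2 + lam * (∫ θ, ‖θ‖ ∂μ) + ∫ x, |x| ∂ν) - 1, fun v hv => ?_⟩
    obtain ⟨N, hN, hN0⟩ := ((hup K hK hKe lam hlam Ω _ P ‹_› a b f ν ‹_› hc v hv 1 one_pos).and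
      (eventually_gt_atTop 0)).exists
    have := (abs_le.1 (pressure_compare (K := K) hlam.le hθ hc.field_int (measurable_clipC (0 : ℕ))
      (measurable_clip (0 : ℕ)) (hd 0) (he 0) hN0).2).1
    linarith
  refine ⟨sInf (trialValues lam μ ν), isGLB_csInf hne hbdd,
    Metric.tendsto_atTop.2 fun ε hε => eventually_atTop.1 ?_⟩
  obtain ⟨v, hv, hv'⟩ := exists_lt_of_csInf_lt hne
    (lt_add_of_pos_right (sInf (trialValues lam μ ν)) (by linarith : 0 < ε / 4))
  obtain ⟨L, hL⟩ := ((Metric.tendsto_nhds.1 hlim) (ε / 8) (by linarith)).exists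
  rw [Real.dist_eq, sub_zero] at hL
  have hLK := (le_abs_self _).trans_lt hL
  have hb : ∃ B : ℝ, (∀ᵐ θ ∂μ.map (clipC (L : ℝ)), ∀ σ, |θ σ| ≤ B) ∧
      ∀ᵐ h ∂ν.map (clip (L : ℝ)), |h| ≤ B :=
    ⟨L, (ae_map_iff (measurable_clipC _).aemeasurable (by
      simp only [Set.ofPred_forall]
      exact MeasurableSet.iInter fun σ =>
        measurableSet_le (measurable_pi_apply σ).abs measurable_const)).2
      (ae_of_all _ fun θ σ => abs_clip_le (Nat.cast_nonneg _) _),
      (ae_map_iff (measurable_clip _).aemeasurable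
        (measurableSet_le measurable_id.abs measurable_const)).2
      (ae_of_all _ fun x => abs_clip_le (Nat.cast_nonneg _) _)⟩
  filter_upwards [hup K hK hKe lam hlam Ω _ P ‹_› a b f ν ‹_› hc v hv (ε / 4) (by linarith),
    hlow K hK lam hlam (μ.map (clipC (L : ℝ))) (ν.map (clip (L : ℝ)))
      (Measure.isProbabilityMeasure_map (measurable_clipC _).aemeasurable)
      (Measure.isProbabilityMeasure_map (measurable_clip _).aemeasurable) hb (ε / 4) (by linarith),
    eventually_gt_atTop 0] with N hN hN' hN0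
  obtain ⟨w, ⟨r, p, rfl⟩, hw⟩ := hN'
  have h1 := (pressure_compare (K := K) hlam.le hθ hc.field_int (measurable_clipC (L : ℝ))
    (measurable_clip (L : ℝ)) (hd L) (he L) hN0).1
  have h2 := trial_compare p (by omega : 1 ≤ K) hlam.le hθ hc.field_int
    (measurable_clipC (L : ℝ)) (measurable_clip (L : ℝ)) (hd L) (he L)
  have h3 : sInf (trialValues lam μ ν) ≤ TU lam μ ν p.m p.x - TV lam μ p.m p.x :=
    csInf_le hbdd ⟨r, p, rfl⟩
  have hK1 : (2 : ℝ) ≤ K := by exact_mod_cast hK
  have hd0 : 0 ≤ ∫ θ, ‖θ - clipC (L : ℝ) θ‖ ∂μ := integral_nonneg fun _ => norm_nonneg _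
  have he0 : 0 ≤ ∫ x, |x - clip (L : ℝ) x| ∂ν := integral_nonneg fun _ => abs_nonneg _
  have s1 : lam * (∫ θ, ‖θ - clipC (L : ℝ) θ‖ ∂μ) ≤
      2 * K * lam * ∫ θ, ‖θ - clipC (L : ℝ) θ‖ ∂μ :=
    mul_le_mul_of_nonneg_right (le_mul_of_one_le_left hlam.le (by linarith)) hd0
  have s2 : (2 * K - 1) * lam * (∫ θ, ‖θ - clipC (L : ℝ) θ‖ ∂μ) ≤
      2 * K * lam * ∫ θ, ‖θ - clipC (L : ℝ) θ‖ ∂μ :=
    mul_le_mul_of_nonneg_right (mul_le_mul_of_nonneg_right (by linarith) hlam.le) hd0
  rw [Real.dist_eq, abs_lt]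
  have := abs_le.1 h1
  have := abs_le.1 h2
  rw [← hμ] at hN
  constructor <;> linarith

end Vale.Agent.P168
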