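import Vale.Agent.P168.Truncate.Compare

/-!
P168: the pressure under a change of the clauses and fields, and its trivial lower bound.
-/

open MeasureTheory ProbabilityTheory Filter Topology Real
open scoped NNReal

noncomputable section

namespace Vale.Agent.P168

variable {K N : ℕ}

theorem isProbabilityMeasure_unif (T : Type*) [Fintype T] [MeasurableSpace T] [Nonempty T] :
    IsProbabilityMeasure (unif T) := by
  constructor
  simp only [unif, Measure.smul_apply, Measure.count_univ, ENat.card_eq_coe_fintype_card,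
    ENNReal.smul_def, smul_eq_mul, ENat.toENNReal_coe]
  rw [ENNReal.coe_inv (by simp [Fintype.card_ne_zero]), ENNReal.coe_natCast]
  exact ENNReal.inv_mul_cancel (by simp [Fintype.card_ne_zero]) (ENNReal.natCast_ne_top _)

theorem abs_sgn_mul (h : ℝ) (e : Bool) : |h * sgn e| = |h| := by cases e <;> simp [sgn]

theorem abs_ham_sub {k : ℕ} (c c' : Fin k → Term K N) (hs : ∀ j, (c j).2 = (c' j).2)
    (h h' : Fin N → ℝ) (σ : Fin N → Bool) :
    |ham c h σ - ham c' h' σ| ≤ (∑ j, ‖(c j).1 - (c' j).1‖) + ∑ i, |h i - h' i| := by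
  unfold ham
  rw [add_sub_add_comm, ← Finset.sum_sub_distrib, ← Finset.sum_sub_distrib]
  refine (abs_add_le _ _).trans (add_le_add ((Finset.abs_sum_le_sum_abs _ _).trans
    (Finset.sum_le_sum fun j _ => ?_)) ((Finset.abs_sum_le_sum_abs _ _).trans
    (Finset.sum_le_sum fun i _ => ?_)))
  · rw [← hs j, ← Pi.sub_apply, ← Real.norm_eq_abs]
    exact norm_le_pi_norm _ _
  · rw [← sub_mul, abs_sgn_mul]

theorem measurable_hamC {k : ℕ} (σ : Fin N → Bool) :
    Measurable fun q : (Fin k → Term K N) × (Fin N → ℝ) => ham q.1 q.2 σ := by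
  have ht : Measurable fun t : Term K N => t.1 fun p => σ (t.2 p) :=
    measurable_from_prod_countable_left fun s =>
      measurable_pi_apply (X := fun _ : Fin K → Bool => ℝ) fun p => σ (s p)
  unfold ham
  refine (Finset.measurable_sum _ fun j _ => ?_).add (Finset.measurable_sum _ fun i _ => ?_)
  · exact ht.comp (measurable_fst.eval)
  · exact (measurable_snd.eval).mul_const _

/-- The logarithm of the partition function. -/
def logZ {k : ℕ} (c : Fin k → Term K N) (h : Fin N → ℝ) : ℝ :=
  Real.log (∑ σ : Fin N → Bool, Real.exp (ham c h σ))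

theorem measurable_logZ {k : ℕ} :
    Measurable fun q : (Fin k → Term K N) × (Fin N → ℝ) => logZ q.1 q.2 :=
  measurable_log.comp (Finset.measurable_sum _ fun σ _ => measurable_exp.comp (measurable_hamC σ))

attribute [local irreducible] logZ

theorem measurable_logZ_right {k : ℕ} (c : Fin k → Term K N) :
    Measurable fun h : Fin N → ℝ => logZ c h := by
  have h1 : Measurable fun h : Fin N → ℝ => (c, h) := measurable_prodMk_left
  exact Measurable.comp (g := fun q : (Fin k → Term K N) × (Fin N → ℝ) => logZ q.1 q.2)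
    measurable_logZ h1

theorem abs_logZ_sub {k : ℕ} (c c' : Fin k → Term K N) (hs : ∀ j, (c j).2 = (c' j).2)
    (h h' : Fin N → ℝ) :
    |logZ c h - logZ c' h'| ≤ (∑ j, ‖(c j).1 - (c' j).1‖) + ∑ i, |h i - h' i| := by
  have := abs_log_sum_exp_sub (w := fun _ : Fin N → Bool => (1 : ℝ))
    (a := ham c h) (b := ham c' h') (fun _ => zero_le_one) (by simp) fun σ => abs_ham_sub c c' hs h h' σ
  simpa [logZ] using this

theorem abs_logZ_sub_log {k : ℕ} (c : Fin k → Term K N) (h : Fin N → ℝ) :
    |logZ c h - N * Real.log 2| ≤ (∑ j, ‖(c j).1‖) + ∑ i, |h i| := by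
  have h0 : logZ (fun j => ((0 : Clause K), (c j).2)) (0 : Fin N → ℝ) = N * Real.log 2 := by
    simp [logZ, ham]
  have := abs_logZ_sub c (fun j => ((0 : Clause K), (c j).2)) (fun _ => rfl) h 0
  simpa [h0] using this

variable {lam : ℝ} {μ : Measure (Clause K)} {ν : Measure ℝ} [IsProbabilityMeasure μ]
  [IsProbabilityMeasure ν]

/-- The mean over the fields of the logarithm of the partition function. -/
def meanLogZ (ν : Measure ℝ) {k : ℕ} (c : Fin k → Term K N) : ℝ :=
  ∫ h, logZ c h ∂(Measure.pi fun _ => ν)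

omit [IsProbabilityMeasure μ] in
theorem measurable_meanLogZ {k : ℕ} : Measurable (meanLogZ ν : (Fin k → Term K N) → ℝ) :=
  (StronglyMeasurable.integral_prod_right' (ν := Measure.pi fun _ => ν)
    measurable_logZ.stronglyMeasurable).measurable

omit [IsProbabilityMeasure μ] in
theorem meanLogZ_bound (hh : Integrable (fun x : ℝ => x) ν) {k : ℕ} (c : Fin k → Term K N) :
    Integrable (fun h => logZ c h) (Measure.pi fun _ => ν) ∧
      |meanLogZ ν c| ≤ N * (Real.log 2 + ∫ x, |x| ∂ν) + ∑ j, ‖(c j).1‖ := by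
  have hh' := integral_pi_sum (k := N) (D := fun x : ℝ => |x|) hh.abs
  have hi : Integrable (fun h : Fin N → ℝ => (∑ j, ‖(c j).1‖ + N * Real.log 2) + ∑ i, |h i|)
      (Measure.pi fun _ => ν) := (integrable_const _).add hh'.1
  have hb : ∀ h, |logZ c h| ≤ (∑ j, ‖(c j).1‖ + N * Real.log 2) + ∑ i, |h i| := fun h => by
    have := abs_le.1 (abs_logZ_sub_log c h)
    have : 0 ≤ N * Real.log 2 := by positivity
    exact abs_le.2 ⟨by linarith, by linarith⟩
  have hm := measurable_logZ_right c
  refine ⟨hi.mono' hm.aestronglyMeasurable (ae_of_all _ hb),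
    (abs_integral_le_integral_abs.trans (integral_mono_of_nonneg
      (ae_of_all _ fun _ => abs_nonneg _) hi (ae_of_all _ hb))).trans_eq ?_⟩
  rw [integral_add (integrable_const _) hh'.1, hh'.2, integral_const, probReal_univ, one_smul]
  ring

omit [IsProbabilityMeasure μ] in
theorem meanLogZ_sub (hh : Integrable (fun x : ℝ => x) ν) {ψ : ℝ → ℝ} (hψ : Measurable ψ)
    (he : Integrable (fun x => |x - ψ x|) ν) {k : ℕ} (c c' : Fin k → Term K N)
    (hs : ∀ j, (c j).2 = (c' j).2) :
    |meanLogZ ν c - meanLogZ (ν.map ψ) c'| ≤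
      N * (∫ x, |x - ψ x| ∂ν) + ∑ j, ‖(c j).1 - (c' j).1‖ := by
  have he' := integral_pi_sum (k := N) he
  have mψ : Measurable fun (h : Fin N → ℝ) i => ψ (h i) :=
    measurable_pi_lambda _ fun i => hψ.comp (measurable_pi_apply i)
  have : IsProbabilityMeasure (ν.map ψ) := Measure.isProbabilityMeasure_map hψ.aemeasurable
  have hm := measurable_logZ_right c'
  have e : meanLogZ (ν.map ψ) c' = ∫ h, logZ c' (fun i => ψ (h i)) ∂(Measure.pi fun _ => ν) := by
    unfold meanLogZ
    rw [← Measure.pi_map_pi (fun _ => hψ.aemeasurable), integral_map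
      (φ := fun (h : Fin N → ℝ) i => ψ (h i)) mψ.aemeasurable hm.aestronglyMeasurable]
  have hb : ∀ h : Fin N → ℝ, |logZ c h - logZ c' fun i => ψ (h i)| ≤
      (∑ j, ‖(c j).1 - (c' j).1‖) + ∑ i, |h i - ψ (h i)| := fun h => abs_logZ_sub c c' hs h _
  have hi : Integrable (fun h : Fin N → ℝ =>
      (∑ j, ‖(c j).1 - (c' j).1‖) + ∑ i, |h i - ψ (h i)|) (Measure.pi fun _ => ν) :=
    (integrable_const _).add he'.1
  have hd : Integrable (fun h => logZ c h - logZ c' fun i => ψ (h i)) (Measure.pi fun _ => ν) :=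
    hi.mono' ((measurable_logZ_right c).sub (hm.comp mψ)).aestronglyMeasurable
      (ae_of_all _ hb)
  have hI : Integrable (fun h => logZ c' fun i => ψ (h i)) (Measure.pi fun _ => ν) :=
    ((meanLogZ_bound hh c).1.sub hd).congr (ae_of_all _ fun h => by simp)
  rw [e, meanLogZ, ← integral_sub (meanLogZ_bound hh c).1 hI]
  refine (abs_integral_le_integral_abs.trans (integral_mono_of_nonneg
    (ae_of_all _ fun _ => abs_nonneg _) hi (ae_of_all _ hb))).trans_eq ?_
  rw [integral_add (integrable_const _) he'.1, he'.2, integral_const, probReal_univ, one_smul]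
  ring

/-- The pressure moves by at most the mean changes of the clause and of the field, and is bounded
by their mean sizes. -/
theorem pressure_compare (hlam : 0 ≤ lam) (hθ : Integrable (fun θ : Clause K => ‖θ‖) μ)
    (hh : Integrable (fun x : ℝ => x) ν) {Φ : Clause K → Clause K} (hΦ : Measurable Φ)
    {ψ : ℝ → ℝ} (hψ : Measurable ψ) (hd : Integrable (fun θ => ‖θ - Φ θ‖) μ)
    (he : Integrable (fun x => |x - ψ x|) ν) (hN : 0 < N) :
    |pressure lam μ ν N - pressure lam (μ.map Φ) (ν.map ψ) N| ≤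
      lam * (∫ θ, ‖θ - Φ θ‖ ∂μ) + ∫ x, |x - ψ x| ∂ν ∧
    |pressure lam μ ν N| ≤ Real.log 2 + lam * (∫ θ, ‖θ‖ ∂μ) + ∫ x, |x| ∂ν := by
  have : Nonempty (Fin N) := ⟨⟨0, hN⟩⟩
  have := isProbabilityMeasure_unif (Fin K → Fin N)
  have : IsProbabilityMeasure (ν.map ψ) := Measure.isProbabilityMeasure_map hψ.aemeasurable
  have main := abs_poisson_sub_map (lam * N).toNNReal (μ := μ.prod (unif (Fin K → Fin N)))
    (Φ := Prod.map Φ id) (hΦ.prodMap measurable_id) (fun _ => meanLogZ ν)
    (fun _ => meanLogZ (ν.map ψ)) (fun _ => measurable_meanLogZ) (fun _ => measurable_meanLogZ)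
    (hθ.comp_fst _) (hd.comp_fst _) (fun _ c => (meanLogZ_bound hh c).2)
    (fun _ c => meanLogZ_sub hh hψ he c _ fun _ => rfl)
  rw [← Measure.map_prod_map μ (unif (Fin K → Fin N)) hΦ measurable_id, Measure.map_id,
    integral_fun_fst (μ := μ) (ν := unif (Fin K → Fin N)) (fun θ => ‖θ - Φ θ‖),
    integral_fun_fst (μ := μ) (ν := unif (Fin K → Fin N)) (fun θ => ‖θ‖), probReal_univ,
    one_smul, one_smul, Real.coe_toNNReal _ (by positivity)] at main
  have hNr : (0 : ℝ) < N := Nat.cast_pos.2 hN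
  unfold meanLogZ logZ at main
  constructor
  · unfold pressure
    rw [← mul_sub, abs_mul, abs_of_pos (inv_pos.2 hNr), inv_mul_le_iff₀ hNr]
    refine main.1.trans_eq ?_
    ring
  · unfold pressure
    rw [abs_mul, abs_of_pos (inv_pos.2 hNr), inv_mul_le_iff₀ hNr]
    refine main.2.trans_eq ?_
    ring

end Vale.Agent.P168
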