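import Vale.Agent.P168.Defs

/-!
P168: elementary properties of the recursion: measurability, bounds, and the Lipschitz bound of
its logarithm.
-/

open MeasureTheory ProbabilityTheory Filter Topology Real

noncomputable section

namespace Vale.Agent.P168

variable {X : Type} [MeasurableSpace X] {ν : Measure X}

theorem measurable_finCons {r : ℕ} :
    Measurable fun q : X × (Fin r → X) => (Fin.cons q.1 q.2 : Fin (r + 1) → X) := by
  refine measurable_pi_lambda _ fun i => ?_
  cases i using Fin.cases with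
  | zero => simpa using measurable_fst
  | succ i => simpa using measurable_snd.eval

theorem measurable_finCons_right {r : ℕ} (y : X) :
    Measurable fun z : Fin r → X => (Fin.cons y z : Fin (r + 1) → X) :=
  measurable_finCons.comp measurable_prodMk_left

/-- The recursion is measurable in parameters. -/
theorem measurable_rpowRec [SFinite ν] : ∀ (r : ℕ) (m : Fin r → ℝ) {Z : Type} [MeasurableSpace Z]
    {Y : Z → (Fin r → X) → ℝ}, Measurable (Function.uncurry Y) →
    Measurable fun z => rpowRec ν r m (Y z)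
  | 0, _, _, _, _, hY => hY.comp (measurable_id.prodMk measurable_const)
  | r + 1, m, Z, _, Y, hY => by
    have hin : Measurable (Function.uncurry fun (q : Z × X) (z : Fin r → X) =>
        Y q.1 (Fin.cons q.2 z)) :=
      hY.comp ((measurable_fst.comp measurable_fst).prodMk
        (measurable_finCons.comp ((measurable_snd.comp measurable_fst).prodMk measurable_snd)))
    have ih := (measurable_rpowRec r (fun p => m p.succ) hin).pow_const (m 0)
    exact (StronglyMeasurable.integral_prod_right' (ν := ν)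
      ih.stronglyMeasurable).measurable.pow_const _

/-- The recursion stays between constant bounds. -/
theorem rpowRec_mem [IsProbabilityMeasure ν] : ∀ (r : ℕ) (m : Fin r → ℝ), (∀ p, 0 < m p) →
    ∀ {Y : (Fin r → X) → ℝ}, Measurable Y → ∀ {a b : ℝ}, 0 < a → (∀ w, a ≤ Y w ∧ Y w ≤ b) →
    a ≤ rpowRec ν r m Y ∧ rpowRec ν r m Y ≤ b
  | 0, _, _, _, _, _, _, _, h => h _
  | r + 1, m, hm, Y, hY, a, b, ha, h => by
    set R : X → ℝ := fun y => rpowRec ν r (fun p => m p.succ) fun z => Y (Fin.cons y z)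
    have hR : ∀ y, a ≤ R y ∧ R y ≤ b := fun y =>
      rpowRec_mem r _ (fun p => hm _) (hY.comp (measurable_finCons_right y)) ha fun z => h _
    have hRm : Measurable R :=
      measurable_rpowRec r _ (Y := fun y z => Y (Fin.cons y z)) (hY.comp measurable_finCons)
    have h1 : ∀ y, a ^ m 0 ≤ R y ^ m 0 ∧ R y ^ m 0 ≤ b ^ m 0 := fun y =>
      ⟨rpow_le_rpow ha.le (hR y).1 (hm 0).le,
        rpow_le_rpow (ha.le.trans (hR y).1) (hR y).2 (hm 0).le⟩
    have hi : Integrable (fun y => R y ^ m 0) ν :=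
      Integrable.of_bound (hRm.pow_const _).aestronglyMeasurable (b ^ m 0) (ae_of_all _ fun y => by
        rw [Real.norm_of_nonneg (rpow_nonneg (ha.le.trans (hR y).1) _)]
        exact (h1 y).2)
    have lo : a ^ m 0 ≤ ∫ y, R y ^ m 0 ∂ν := by
      simpa using integral_mono (integrable_const _) hi fun y => (h1 y).1
    have up : (∫ y, R y ^ m 0 ∂ν) ≤ b ^ m 0 := by
      simpa using integral_mono hi (integrable_const _) fun y => (h1 y).2
    obtain ⟨y⟩ : Nonempty X := nonempty_of_isProbabilityMeasure ν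
    have hb : 0 ≤ b := ha.le.trans ((hR y).1.trans (hR y).2)
    simp only [rpowRec]
    constructor
    · calc a = (a ^ m 0) ^ (m 0)⁻¹ := (rpow_rpow_inv ha.le (hm 0).ne').symm
        _ ≤ _ := rpow_le_rpow (rpow_nonneg ha.le _) lo (inv_nonneg.2 (hm 0).le)
    · calc (∫ y, R y ^ m 0 ∂ν) ^ (m 0)⁻¹ ≤ (b ^ m 0) ^ (m 0)⁻¹ :=
            rpow_le_rpow ((rpow_nonneg ha.le _).trans lo) up (inv_nonneg.2 (hm 0).le)
        _ = b := rpow_rpow_inv hb (hm 0).ne'

/-- The recursion is monotone and homogeneous. -/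
theorem rpowRec_le_mul [IsProbabilityMeasure ν] : ∀ (r : ℕ) (m : Fin r → ℝ), (∀ p, 0 < m p) →
    ∀ {Y Y' : (Fin r → X) → ℝ}, Measurable Y → Measurable Y' → ∀ {a b c : ℝ}, 0 < a → 0 < c →
    (∀ w, a ≤ Y w ∧ Y w ≤ b) → (∀ w, a ≤ Y' w ∧ Y' w ≤ b) → (∀ w, Y w ≤ c * Y' w) →
    rpowRec ν r m Y ≤ c * rpowRec ν r m Y'
  | 0, _, _, _, _, _, _, _, _, _, _, _, _, _, h => h _
  | r + 1, m, hm, Y, Y', hY, hY', a, b, c, ha, hc, hb, hb', h => by
    have bd : ∀ {Y : (Fin (r + 1) → X) → ℝ}, Measurable Y → (∀ w, a ≤ Y w ∧ Y w ≤ b) →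
        ∀ y, a ≤ rpowRec ν r (fun p => m p.succ) (fun z => Y (Fin.cons y z)) ∧
          rpowRec ν r (fun p => m p.succ) (fun z => Y (Fin.cons y z)) ≤ b := fun hY hb y =>
      rpowRec_mem r _ (fun p => hm _) (hY.comp (measurable_finCons_right y)) ha fun z => hb _
    have int : ∀ {Y : (Fin (r + 1) → X) → ℝ}, Measurable Y → (∀ w, a ≤ Y w ∧ Y w ≤ b) →
        Integrable (fun y =>
          rpowRec ν r (fun p => m p.succ) (fun z => Y (Fin.cons y z)) ^ m 0) ν := fun {Y} hY hb =>
      Integrable.of_bound ((measurable_rpowRec r _ (Y := fun y z => Y (Fin.cons y z))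
        (hY.comp measurable_finCons)).pow_const _).aestronglyMeasurable (b ^ m 0)
        (ae_of_all _ fun y => by
          rw [Real.norm_of_nonneg (rpow_nonneg (ha.le.trans (bd hY hb y).1) _)]
          exact rpow_le_rpow (ha.le.trans (bd hY hb y).1) (bd hY hb y).2 (hm 0).le)
    have hle : ∀ y, rpowRec ν r (fun p => m p.succ) (fun z => Y (Fin.cons y z)) ^ m 0 ≤
        c ^ m 0 * rpowRec ν r (fun p => m p.succ) (fun z => Y' (Fin.cons y z)) ^ m 0 := fun y => by
      rw [← mul_rpow hc.le (ha.le.trans (bd hY' hb' y).1)]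
      exact rpow_le_rpow (ha.le.trans (bd hY hb y).1) (rpowRec_le_mul r _ (fun p => hm _)
        (hY.comp (measurable_finCons_right y)) (hY'.comp (measurable_finCons_right y)) ha hc
        (fun z => hb _) (fun z => hb' _) fun z => h _) (hm 0).le
    have h0 : ∀ {Y : (Fin (r + 1) → X) → ℝ}, Measurable Y → (∀ w, a ≤ Y w ∧ Y w ≤ b) →
        0 ≤ ∫ y, rpowRec ν r (fun p => m p.succ) (fun z => Y (Fin.cons y z)) ^ m 0 ∂ν :=
      fun hY hb => integral_nonneg fun y => rpow_nonneg (ha.le.trans (bd hY hb y).1) _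
    simp only [rpowRec]
    refine (rpow_le_rpow (h0 hY hb) ((integral_mono (int hY hb) ((int hY' hb').const_mul _)
      hle).trans_eq (integral_const_mul _ _)) (inv_nonneg.2 (hm 0).le)).trans_eq ?_
    rw [mul_rpow (rpow_nonneg hc.le _) (h0 hY' hb'), rpow_rpow_inv hc.le (hm 0).ne']

/-- The logarithm of the recursion is within the same distance as the logarithms of the
variables. -/
theorem abs_log_rpowRec_sub [IsProbabilityMeasure ν] {r : ℕ} {m : Fin r → ℝ}
    (hm : ∀ p, 0 < m p) {Y Y' : (Fin r → X) → ℝ} (hY : Measurable Y) (hY' : Measurable Y')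
    (h0 : ∀ w, 0 < Y w) (h0' : ∀ w, 0 < Y' w) {B d : ℝ} (hB : ∀ w, |log (Y w)| ≤ B)
    (hd : ∀ w, |log (Y w) - log (Y' w)| ≤ d) :
    |log (rpowRec ν r m Y) - log (rpowRec ν r m Y')| ≤ d := by
  have key : ∀ {Y Y' : (Fin r → X) → ℝ}, Measurable Y → Measurable Y' → (∀ w, 0 < Y w) →
      (∀ w, 0 < Y' w) → (∀ w, |log (Y w)| ≤ |B| + |d|) → (∀ w, |log (Y' w)| ≤ |B| + |d|) →
      (∀ w, log (Y w) - log (Y' w) ≤ d) →
      log (rpowRec ν r m Y) - log (rpowRec ν r m Y') ≤ d := by
    intro Y Y' hY hY' h0 h0' hB hB' hd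
    have bd : ∀ {Y : (Fin r → X) → ℝ}, (∀ w, 0 < Y w) → (∀ w, |log (Y w)| ≤ |B| + |d|) →
        ∀ w, exp (-(|B| + |d|)) ≤ Y w ∧ Y w ≤ exp (|B| + |d|) := fun h0 hB w =>
      ⟨(le_log_iff_exp_le (h0 w)).1 (abs_le.1 (hB w)).1,
        (log_le_iff_le_exp (h0 w)).1 (abs_le.1 (hB w)).2⟩
    have p : 0 < rpowRec ν r m Y :=
      lt_of_lt_of_le (exp_pos _) (rpowRec_mem r m hm hY (exp_pos _) (bd h0 hB)).1
    have p' : 0 < rpowRec ν r m Y' :=
      lt_of_lt_of_le (exp_pos _) (rpowRec_mem r m hm hY' (exp_pos _) (bd h0' hB')).1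
    have := log_le_log p (rpowRec_le_mul r m hm hY hY' (exp_pos _) (exp_pos d) (bd h0 hB)
      (bd h0' hB') fun w => by
        rw [← exp_log (h0 w), ← exp_log (h0' w), ← exp_add]
        exact exp_le_exp.2 (by linarith [hd w]))
    rw [log_mul (exp_pos _).ne' p'.ne', log_exp] at this
    linarith
  have hB1 : ∀ w, |log (Y w)| ≤ |B| + |d| := fun w => by
    linarith [hB w, le_abs_self B, abs_nonneg d]
  have hB2 : ∀ w, |log (Y' w)| ≤ |B| + |d| := fun w => by
    have := abs_sub_abs_le_abs_sub (log (Y' w)) (log (Y w))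
    rw [abs_sub_comm] at this
    linarith [hB w, le_abs_self B, hd w, le_abs_self d]
  refine abs_sub_le_iff.2 ⟨key hY hY' h0 h0' hB1 hB2 fun w => (abs_le.1 (hd w)).2,
    key hY' hY h0' h0 hB2 hB1 fun w => ?_⟩
  linarith [(abs_le.1 (hd w)).1]

end Vale.Agent.P168
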