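import Vale.Agent.P168.Truncate.Rec
import Vale.Agent.P168.Truncate.Press

/-!
P168: the variables `U` and `V` of the trial functional and their logarithms under a change of
the clauses and of the field.
-/

open MeasureTheory ProbabilityTheory Filter Topology Real
open scoped NNReal

noncomputable section

namespace Vale.Agent.P168

variable {K r k : ℕ}

/-- The message weight of a spin. -/
def msgW (v : Fin K → ℝ) (i : Fin K) (s : Bool) : ℝ := (1 + v i * sgn s) / 2

theorem msgW_nonneg {v : Fin K → ℝ} (hv : ∀ i, v i ∈ Set.Icc (-1 : ℝ) 1) (i : Fin K) (s : Bool) :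
    0 ≤ msgW v i s := by
  obtain ⟨h1, h2⟩ := hv i
  cases s <;> simp [msgW, sgn] <;> linarith

theorem sum_msgW (v : Fin K → ℝ) : ∑ σ : Fin K → Bool, ∏ i, msgW v i (σ i) = 1 := by
  rw [← Fintype.prod_sum]
  refine Finset.prod_eq_one fun i _ => ?_
  simp [msgW, sgn]
  ring

open Classical in
/-- The weight of a configuration given the spin at a position. -/
def fixW (v : Fin K → ℝ) (l : Fin K) (e : Bool) (σ : Fin K → Bool) : ℝ :=
  if σ l = e then ∏ i ∈ Finset.univ.erase l, msgW v i (σ i) else 0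

theorem fixW_nonneg {v : Fin K → ℝ} (hv : ∀ i, v i ∈ Set.Icc (-1 : ℝ) 1) (l : Fin K) (e : Bool)
    (σ : Fin K → Bool) : 0 ≤ fixW v l e σ := by
  unfold fixW
  split_ifs
  · exact Finset.prod_nonneg fun i _ => msgW_nonneg hv i _
  · exact le_rfl

theorem sum_fixW (v : Fin K → ℝ) (l : Fin K) (e : Bool) : ∑ σ, fixW v l e σ = 1 := by
  have h : ∀ σ, fixW v l e σ =
      ∏ i, if i = l then (if σ i = e then (1 : ℝ) else 0) else msgW v i (σ i) := fun σ => by
    rw [← Finset.mul_prod_erase _ _ (Finset.mem_univ l), if_pos rfl, Finset.prod_congr rfl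
      fun i hi => if_neg (Finset.ne_of_mem_erase hi), fixW, ite_mul, one_mul, zero_mul]
  simp only [h]
  rw [← Fintype.prod_sum (fun i s => if i = l then (if s = e then (1 : ℝ) else 0) else msgW v i s)]
  refine Finset.prod_eq_one fun i _ => ?_
  by_cases hi : i = l
  · simp [hi]
  · simp [hi, msgW, sgn]
    ring

theorem logSum_compare {ι : Type*} [Fintype ι] {w : ι → ℝ} (hw : ∀ i, 0 ≤ w i)
    (h1 : ∑ i, w i = 1) (θ θ' : ι → ℝ) :
    0 < ∑ i, w i * exp (θ i) ∧
      |log (∑ i, w i * exp (θ i)) - log (∑ i, w i * exp (θ' i))| ≤ ‖θ - θ'‖ := by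
  refine ⟨?_, abs_log_sum_exp_sub hw (by rw [h1]; exact one_pos) fun i => ?_⟩
  · obtain ⟨i0, -, hi0⟩ := Finset.exists_ne_zero_of_sum_ne_zero (h1.trans_ne one_ne_zero)
    exact Finset.sum_pos' (fun i _ => mul_nonneg (hw i) (exp_pos _).le)
      ⟨i0, Finset.mem_univ _, mul_pos (lt_of_le_of_ne (hw i0) (Ne.symm hi0)) (exp_pos _)⟩
  · rw [← Pi.sub_apply, ← Real.norm_eq_abs]
    exact norm_le_pi_norm _ _

variable {x : (Fin (r + 1) → ℝ) → ℝ}

theorem Uval_eq (c : Fin k → Clause K × Fin K) (h : ℝ) (ω : Fin (r + 1) → Fin k → Fin K → ℝ) :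
    Uval c h x ω = ∑ e : Bool, exp (h * sgn e) *
      ∏ j, ∑ σ, fixW (msg x ω j) (c j).2 e σ * exp ((c j).1 σ) := by
  unfold Uval
  refine Finset.sum_congr rfl fun e _ => congrArg _ (Finset.prod_congr rfl fun j _ =>
    Finset.sum_congr rfl fun σ _ => ?_)
  simp only [fixW, msgW, ite_mul, zero_mul, mul_comm (exp ((c j).1 σ))]

theorem Vval_eq (c : Fin k → Clause K) (ω : Fin (r + 1) → Fin k → Fin K → ℝ) :
    Vval c x ω = ∏ j, ∑ σ : Fin K → Bool, (∏ i, msgW (msg x ω j) i (σ i)) * exp (c j σ) := by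
  simp only [Vval, msgW, mul_comm (exp _)]

variable (hx : ∀ w, x w ∈ Set.Icc (-1 : ℝ) 1)
include hx

theorem Vval_compare (c c' : Fin k → Clause K) (ω : Fin (r + 1) → Fin k → Fin K → ℝ) :
    0 < Vval c x ω ∧ |log (Vval c x ω) - log (Vval c' x ω)| ≤ ∑ j, ‖c j - c' j‖ := by
  have hp := fun (c : Fin k → Clause K) j => (logSum_compare (fun σ : Fin K → Bool =>
    Finset.prod_nonneg fun i _ => msgW_nonneg (v := msg x ω j) (fun _ => hx _) i _)
    (sum_msgW _) (c j) (c' j))
  rw [Vval_eq, Vval_eq, log_prod fun j _ => (hp c j).1.ne', log_prod fun j _ => (hp c' j).1.ne',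
    ← Finset.sum_sub_distrib]
  exact ⟨Finset.prod_pos fun j _ => (hp c j).1, (Finset.abs_sum_le_sum_abs _ _).trans
    (Finset.sum_le_sum fun j _ => (hp c j).2)⟩

theorem Uval_compare (c c' : Fin k → Clause K × Fin K) (hs : ∀ j, (c j).2 = (c' j).2) (h h' : ℝ)
    (ω : Fin (r + 1) → Fin k → Fin K → ℝ) :
    0 < Uval c h x ω ∧
      |log (Uval c h x ω) - log (Uval c' h' x ω)| ≤ |h - h'| + ∑ j, ‖(c j).1 - (c' j).1‖ := by
  set S : (Fin k → Clause K × Fin K) → Bool → Fin k → ℝ := fun c e j =>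
    ∑ σ, fixW (msg x ω j) (c j).2 e σ * exp ((c j).1 σ)
  have hw : ∀ j l e σ, 0 ≤ fixW (msg x ω j) l e σ := fun j => fixW_nonneg fun _ => hx _
  have hp : ∀ c e j, 0 < S c e j := fun c e j =>
    (logSum_compare (hw j (c j).2 e) (sum_fixW _ _ _) (c j).1 (c j).1).1
  have hU : ∀ c h, Uval c h x ω = ∑ e, 1 * exp (h * sgn e + ∑ j, log (S c e j)) := fun c h => by
    rw [Uval_eq]
    refine Finset.sum_congr rfl fun e _ => ?_
    rw [one_mul, exp_add, exp_sum, Finset.prod_congr rfl fun j _ => exp_log (hp c e j)]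
  rw [hU, hU]
  refine ⟨Finset.sum_pos (fun e _ => by positivity) Finset.univ_nonempty,
    abs_log_sum_exp_sub (fun _ => zero_le_one) (by simp) fun e => ?_⟩
  rw [add_sub_add_comm, ← Finset.sum_sub_distrib, ← sub_mul]
  refine (abs_add_le _ _).trans (add_le_add (abs_sgn_mul _ e).le
    ((Finset.abs_sum_le_sum_abs _ _).trans (Finset.sum_le_sum fun j _ => ?_)))
  simp only [S, ← hs j]
  exact (logSum_compare (hw j (c j).2 e) (sum_fixW _ _ _) _ _).2

theorem abs_log_Uval (c : Fin k → Clause K × Fin K) (h : ℝ)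
    (ω : Fin (r + 1) → Fin k → Fin K → ℝ) :
    |log (Uval c h x ω) - log 2| ≤ |h| + ∑ j, ‖(c j).1‖ := by
  have h0 : Uval (fun j => ((0 : Clause K), (c j).2)) 0 x ω = 2 := by
    simp [Uval_eq, sum_fixW]
  simpa [h0] using
    (Uval_compare hx c (fun j => ((0 : Clause K), (c j).2)) (fun _ => rfl) h 0 ω).2

theorem abs_log_Vval (c : Fin k → Clause K) (ω : Fin (r + 1) → Fin k → Fin K → ℝ) :
    |log (Vval c x ω)| ≤ ∑ j, ‖c j‖ := by
  have h0 : Vval (fun _ => (0 : Clause K)) x ω = (1 : ℝ) := by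
    have : ∀ j : Fin k, ∑ σ : Fin K → Bool, (∏ i, msgW (msg x ω j) i (σ i)) *
        exp ((0 : Clause K) σ) = 1 := fun j => by simp [sum_msgW]
    rw [Vval_eq, Finset.prod_eq_one fun j _ => this j]
  simpa [h0] using (Vval_compare hx c (fun _ => (0 : Clause K)) ω).2

omit hx in
theorem measurable_msg {Z : Type*} [MeasurableSpace Z] (hm : Measurable x)
    {ω : Z → Fin (r + 1) → Fin k → Fin K → ℝ} (hω : Measurable ω) (j : Fin k) (i : Fin K) :
    Measurable fun z => msg x (ω z) j i :=
  hm.comp (measurable_pi_lambda _ fun p => ((measurable_pi_apply i).comp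
    ((measurable_pi_apply j).comp ((measurable_pi_apply p).comp hω))))

omit hx in
theorem measurable_Uval (hm : Measurable x) :
    Measurable fun q : ((Fin k → Clause K × Fin K) × ℝ) × (Fin (r + 1) → Fin k → Fin K → ℝ) =>
      Uval q.1.1 q.1.2 x q.2 := by
  simp only [Uval_eq]
  refine Finset.measurable_sum _ fun e _ => (measurable_exp.comp
    ((measurable_snd.comp measurable_fst).mul_const _)).mul
    (Finset.measurable_prod _ fun j _ => Finset.measurable_sum _ fun σ _ => ?_)
  have hf : Measurable fun t : ((Fin K → ℝ) × Clause K) × Fin K =>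
      fixW t.1.1 t.2 e σ * exp (t.1.2 σ) := by
    refine measurable_from_prod_countable_left fun l => ?_
    refine Measurable.mul ?_ (measurable_exp.comp ((measurable_pi_apply σ).comp measurable_snd))
    unfold fixW
    by_cases h : σ l = e <;> simp only [h, if_true, if_false, measurable_const]
    exact Finset.measurable_prod _ fun i _ =>
      ((((measurable_pi_apply i).comp measurable_fst).mul_const _).const_add 1).div_const 2
  have hv : Measurable fun q : ((Fin k → Clause K × Fin K) × ℝ) ×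
      (Fin (r + 1) → Fin k → Fin K → ℝ) => msg x q.2 j :=
    measurable_pi_lambda _ fun i => measurable_msg hm measurable_snd j i
  have hc : Measurable fun q : ((Fin k → Clause K × Fin K) × ℝ) ×
      (Fin (r + 1) → Fin k → Fin K → ℝ) => q.1.1 j :=
    (measurable_pi_apply j).comp (measurable_fst.comp measurable_fst)
  exact hf.comp ((hv.prodMk (measurable_fst.comp hc)).prodMk (measurable_snd.comp hc))

omit hx in
theorem measurable_Vval (hm : Measurable x) :
    Measurable fun q : (Fin k → Clause K) × (Fin (r + 1) → Fin k → Fin K → ℝ) =>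
      Vval q.1 x q.2 := by
  simp only [Vval_eq, msgW]
  refine Finset.measurable_prod _ fun j _ => Finset.measurable_sum _ fun σ _ => Measurable.mul ?_
    (measurable_exp.comp ((measurable_pi_apply σ).comp ((measurable_pi_apply j).comp measurable_fst)))
  exact Finset.measurable_prod _ fun i _ =>
    (((measurable_msg hm measurable_snd j i).mul_const _).const_add 1).div_const 2

end Vale.Agent.P168
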